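import Vale.Agent.P046.Full.Limit
import Vale.Agent.P046.Full.Order
import Vale.Agent.P046.Full.Recursion
import Vale.Agent.P046.Full.Long
import Vale.Agent.P046.Full.Paths
import Vale.Agent.P046.Full.Regularity
import Vale.Agent.P046.Full.Links
import Vale.Agent.P046.Full.Potential
import Vale.Agent.P046.Full.Short

/-!
P046: hand-in. The random triangle removal process leaves `(1/(2√2) + o(1)) n^(3/2)` edges, in
probability and in mean.
-/

namespace Vale.Agent.Results.P046.JoosKuhnConstant

open Finset Filter
open scoped Topology

/-- The triangles of an edge set: three vertices all of whose three pairs are edges. -/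
def triangles (n : ℕ) (G : Finset (Finset (Fin n))) : Finset (Finset (Fin n)) :=
  (Finset.univ.powersetCard 3).filter fun t => ∀ e ∈ t.powersetCard 2, e ∈ G

/-- The expectation of `f` of the final graph of random triangle removal started at `G`. -/
noncomputable def removal (n : ℕ) (f : Finset (Finset (Fin n)) → ℝ)
    (G : Finset (Finset (Fin n))) : ℝ :=
  if triangles n G = ∅ then f G
  else (∑ t ∈ (triangles n G).attach, removal n f (G \ t.1.powersetCard 2)) /
    (triangles n G).card
termination_by G.card
decreasing_by
  have ht := t.2
  simp only [triangles, Finset.mem_filter, Finset.mem_powersetCard] at ht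
  have hs : t.1.powersetCard 2 ⊆ G := fun e he => ht.2 e (Finset.mem_powersetCard.1 he)
  refine Finset.card_lt_card (Finset.sdiff_ssubset hs ?_)
  rw [← Finset.card_pos, Finset.card_powersetCard, ht.1.2]
  decide

theorem removal_eq_ex (n : ℕ) (f : Finset (Finset (Fin n)) → ℝ) (G : Finset (Finset (Fin n))) :
    removal n f G = (_root_.P046.kn n).ex f G := by
  refine _root_.P046.LH.ex_induction (L := _root_.P046.kn n)
    (P := fun G => removal n f G = (_root_.P046.kn n).ex f G) (fun W ih => ?_) G
  have hk : (_root_.P046.kn n).tris W = (triangles n W).image fun t => t.powersetCard 2 :=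
    _root_.P046.kn_tris W
  have hinj : Set.InjOn (fun t : Finset (Fin n) => t.powersetCard 2) (triangles n W) := by
    intro a ha b hb h
    simp only [triangles, Finset.coe_filter, Set.mem_ofPred_eq, Finset.mem_powersetCard] at ha hb
    exact _root_.P046.pairs_inj n ha.1.2 hb.1.2 h
  by_cases h : triangles n W = ∅
  · rw [removal, if_pos h, _root_.P046.LH.ex_terminal (by rw [hk, h, Finset.image_empty])]
  · rw [removal, if_neg h, _root_.P046.LH.ex_step (by rwa [hk, Ne, Finset.image_eq_empty]),
      _root_.P046.LH.avg, hk, Finset.sum_image hinj, Finset.card_image_of_injOn hinj,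
      Finset.sum_attach (triangles n W) (fun t => removal n f (W \ t.powersetCard 2))]
    congr 1
    exact Finset.sum_congr rfl fun t ht =>
      ih _ (by rw [hk]; exact Finset.mem_image_of_mem _ ht)

/-- **The leave of random triangle removal**: `F_n / n ^ (3/2) → 1 / (2√2)`, in probability and in
mean. -/
theorem result :
    (∀ ε : ℝ, 0 < ε → Tendsto (fun n : ℕ =>
      removal n (fun G =>
        if ε < |(G.card : ℝ) / (n : ℝ) ^ (3/2 : ℝ) - 1 / (2 * Real.sqrt 2)| then 1 else 0)
        (Finset.univ.powersetCard 2)) atTop (𝓝 0)) ∧
    Tendsto (fun n : ℕ => removal n (fun G => (G.card : ℝ)) (Finset.univ.powersetCard 2)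
      / (n : ℝ) ^ (3/2 : ℝ)) atTop (𝓝 (1 / (2 * Real.sqrt 2))) := by
  simp only [removal_eq_ex]
  exact _root_.P046.Full.limits fun δ hδ => _root_.P046.Full.main_abs
    (_root_.P046.Full.regularity_of _root_.P046.Full.linksStmt
      _root_.P046.Full.potential) _root_.P046.Full.short
    _root_.P046.Full.long_walks _root_.P046.Full.recursion
    _root_.P046.Tree.coupling _root_.P046.LH.orderStmt δ hδ

end Vale.Agent.Results.P046.JoosKuhnConstant
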